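import Mathlib

/-! P123 (Crouzeix): for polynomials of degree at most `d` the best constant over all bounded
operators on all complex Hilbert spaces is already attained on spaces of dimension at most
`d + 1` (compression to a Krylov subspace). -/

namespace Vale.Agent.Results.P123.KrylovReduction

open Polynomial

/-- `M` bounds `|P|` on the numerical range `W(A) = {<A v, v> : |v| = 1}` (Mathlib's inner product
is linear in the second argument, so `<A v, v>` of the problem file is `inner ℂ v (A v)`). -/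
def BoundsOnW {H : Type*} [NormedAddCommGroup H] [InnerProductSpace ℂ H] (A : H →L[ℂ] H)
    (P : ℂ[X]) (M : ℝ) : Prop :=
  ∀ v : H, ‖v‖ = 1 → ‖P.eval (inner ℂ v (A v))‖ ≤ M

section
variable {H : Type*} [NormedAddCommGroup H] [InnerProductSpace ℂ H]

/-- the Krylov subspace spanned by `x, A x, ..., A^d x` -/
def kry (A : H →L[ℂ] H) (x : H) (d : ℕ) : Submodule ℂ H :=
  Submodule.span ℂ (Set.range (fun j : Fin (d + 1) => (A ^ (j : ℕ)) x))

instance (A : H →L[ℂ] H) (x : H) (d : ℕ) : FiniteDimensional ℂ (kry A x d) :=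
  FiniteDimensional.span_of_finite ℂ (Set.finite_range _)

theorem finrank_kry (A : H →L[ℂ] H) (x : H) (d : ℕ) : Module.finrank ℂ (kry A x d) ≤ d + 1 := by
  have h := finrank_range_le_card (R := ℂ) (fun j : Fin (d + 1) => (A ^ (j : ℕ)) x)
  rw [Fintype.card_fin] at h
  exact h

theorem pow_mem_kry (A : H →L[ℂ] H) (x : H) (d j : ℕ) (hj : j ≤ d) : (A ^ j) x ∈ kry A x d :=
  Submodule.subset_span ⟨⟨j, by omega⟩, rfl⟩

/-- the compression of `A` to the Krylov subspace -/
noncomputable def comp (A : H →L[ℂ] H) (x : H) (d : ℕ) : kry A x d →L[ℂ] kry A x d :=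
  ((kry A x d).orthogonalProjectionOnto.comp A).comp (kry A x d).subtypeL

theorem inner_comp (A : H →L[ℂ] H) (x : H) (d : ℕ) (v : kry A x d) :
    inner ℂ v (comp A x d v) = inner ℂ (v : H) (A v) := by
  have h := Submodule.inner_orthogonalProjectionOnto_eq_of_mem_left (K := kry A x d) v (A v)
  rw [Submodule.coe_inner]
  exact h

/-- the starting vector as an element of the Krylov subspace -/
def x0 (A : H →L[ℂ] H) (x : H) (d : ℕ) : kry A x d :=
  ⟨x, by simpa using pow_mem_kry A x d 0 (Nat.zero_le _)⟩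

theorem comp_pow (A : H →L[ℂ] H) (x : H) (d j : ℕ) (hj : j ≤ d) :
    (((comp A x d) ^ j) (x0 A x d) : H) = (A ^ j) x := by
  induction j with
  | zero => simp [x0]
  | succ j ih =>
    have ih' := ih (by omega)
    have hmem : A ((A ^ j) x) ∈ kry A x d := by
      have h1 := pow_mem_kry A x d (j + 1) hj
      rwa [pow_succ', ContinuousLinearMap.mul_apply] at h1
    rw [pow_succ', ContinuousLinearMap.mul_apply, pow_succ', ContinuousLinearMap.mul_apply]
    have h2 : ((comp A x d) (((comp A x d) ^ j) (x0 A x d)) : H)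
        = ((kry A x d).orthogonalProjectionOnto (A ((((comp A x d) ^ j) (x0 A x d) : kry A x d) : H)) : H) := rfl
    rw [h2, ih']
    exact Submodule.starProjection_eq_self_iff.mpr hmem

theorem aeval_comp (A : H →L[ℂ] H) (x : H) (d : ℕ) (P : ℂ[X]) (hP : P.natDegree ≤ d) :
    ((aeval (comp A x d) P) (x0 A x d) : H) = (aeval A P) x := by
  rw [aeval_eq_sum_range, aeval_eq_sum_range]
  simp only [ContinuousLinearMap.sum_apply, ContinuousLinearMap.smul_apply, Submodule.coe_sum,
    Submodule.coe_smul]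
  refine Finset.sum_congr rfl fun j hj => ?_
  rw [comp_pow A x d j (by have := Finset.mem_range.mp hj; omega)]

theorem bounds_comp (A : H →L[ℂ] H) (x : H) (d : ℕ) (P : ℂ[X]) (M : ℝ) (h : BoundsOnW A P M) :
    BoundsOnW (comp A x d) P M := by
  intro v hv
  rw [inner_comp]
  exact h v (by simpa using hv)

end

universe u

theorem reduction (C : ℝ) (d : ℕ)
    (hfin : ∀ (K : Type u) [NormedAddCommGroup K] [InnerProductSpace ℂ K] [FiniteDimensional ℂ K]
      [Nontrivial K], Module.finrank ℂ K ≤ d + 1 → ∀ (B : K →L[ℂ] K) (P : ℂ[X]) (M : ℝ),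
      P.natDegree ≤ d → BoundsOnW B P M → ‖aeval B P‖ ≤ C * M) :
    ∀ (H : Type u) [NormedAddCommGroup H] [InnerProductSpace ℂ H] [Nontrivial H]
      (A : H →L[ℂ] H) (P : ℂ[X]) (M : ℝ),
      P.natDegree ≤ d → BoundsOnW A P M → ‖aeval A P‖ ≤ C * M := by
  intro H _ _ _ A P M hP hM
  have key : ∀ x : H, x ≠ 0 → ‖aeval (comp A x d) P‖ ≤ C * M := by
    intro x hx
    haveI : Nontrivial (kry A x d) :=
      ⟨⟨x0 A x d, 0, fun h => hx (congrArg Subtype.val h)⟩⟩
    exact hfin (kry A x d) (finrank_kry A x d) (comp A x d) P M hP (bounds_comp A x d P M hM)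
  obtain ⟨y, hy⟩ := exists_ne (0 : H)
  have hCM : 0 ≤ C * M := le_trans (norm_nonneg (aeval (comp A y d) P)) (key y hy)
  refine ContinuousLinearMap.opNorm_le_bound _ hCM fun x => ?_
  by_cases hx : x = 0
  · subst hx
    simp
  · rw [← aeval_comp A x d P hP]
    have h1 := (aeval (comp A x d) P).le_opNorm (x0 A x d)
    have h2 : ‖x0 A x d‖ = ‖x‖ := rfl
    rw [h2] at h1
    have h3 : ‖((aeval (comp A x d) P) (x0 A x d) : H)‖ = ‖(aeval (comp A x d) P) (x0 A x d)‖ := rfl
    rw [h3]
    exact h1.trans (mul_le_mul_of_nonneg_right (key x hx) (norm_nonneg _))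

/-- Fix a constant `C` and a degree `d`.  The inequality `|P(B)| <= C sup_{W(B)} |P|` holds for all
operators `B` on nonzero complex inner product spaces of dimension at most `d + 1` and all
polynomials `P` of degree at most `d` if and only if it holds for all bounded operators `A` on all
nonzero complex inner product spaces (complete or not, of any dimension) and all `P` of degree at
most `d`. -/
theorem result (C : ℝ) (d : ℕ) :
    (∀ (K : Type u) [NormedAddCommGroup K] [InnerProductSpace ℂ K] [FiniteDimensional ℂ K]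
      [Nontrivial K], Module.finrank ℂ K ≤ d + 1 → ∀ (B : K →L[ℂ] K) (P : ℂ[X]) (M : ℝ),
      P.natDegree ≤ d → BoundsOnW B P M → ‖aeval B P‖ ≤ C * M) ↔
    ∀ (H : Type u) [NormedAddCommGroup H] [InnerProductSpace ℂ H] [Nontrivial H]
      (A : H →L[ℂ] H) (P : ℂ[X]) (M : ℝ),
      P.natDegree ≤ d → BoundsOnW A P M → ‖aeval A P‖ ≤ C * M :=
  ⟨reduction C d, fun h K _ _ _ _ _ B P M hP hB => h K B P M hP hB⟩

end Vale.Agent.Results.P123.KrylovReduction
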